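import Vale.Agent.P159.Improved

/-!
# P159: a lower bound on the correlation length below the transition

`m(b_c) = 0` and `ξ(b) ≥ (4000 (b_c - b))^(-1/(2 - 1/(256 b_c)))` as `b` increases to `b_c`,
an exponent strictly above one half.
-/

namespace Vale.Agent.Results.P159.CorrelationLength

open Filter Topology Vale.Agent.P159

theorem result : ∃ (C : ℝ → ℕ → ℝ) (m : ℝ → ℝ),
    (∀ b, 0 < b → ∀ r : ℕ,
      Tendsto (fun R => twoPoint R b (0, 0) ((r : ℤ), 0)) atTop (𝓝 (C b r)) ∧ 0 < C b r) ∧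
    (∀ b, 0 < b → Tendsto (fun r : ℕ => -Real.log (C b r) / r) atTop (𝓝 (m b))) ∧
    ∀ bc, IsGLB {b : ℝ | 0 < b ∧ m b = 0} bc →
      1 / 16 ≤ bc ∧ m bc = 0 ∧
      0 < 1 / (256 * bc) ∧ 1 / (256 * bc) ≤ 1 ∧
      ∀ b, 0 < b → b < bc → bc - b < 1 / 4000 →
        0 < m b ∧ (1 / (4000 * (bc - b))) ^ (1 / (2 - 1 / (256 * bc))) ≤ 1 / m b := by
  refine ⟨axisCorr, mass, fun b hb r => ⟨tendsto_twoPoint hb.le _ _, axisCorr_pos hb r⟩,
    fun b hb => tendsto_mass hb, fun bc hg => ?_⟩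
  obtain ⟨h16, hzero, hbelow⟩ := critical_bound hg
  have hbc : 0 < bc := by linarith
  refine ⟨h16, hzero, by positivity, by rw [div_le_one (by linarith)]; linarith,
    fun b hb hlt hclose => ?_⟩
  obtain ⟨hpos, -⟩ := hbelow b hb hlt
  refine ⟨hpos, ?_⟩
  have he : 0 ≤ 4000 * (bc - b) := by linarith
  rw [Real.div_rpow zero_le_one he, Real.one_rpow]
  exact one_div_le_one_div_of_le hpos (mass_le_power hg hb hlt hclose)

end Vale.Agent.Results.P159.CorrelationLength
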